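import Vale.Agent.P181.Deep.Expand

/-!
The rigid clique family.
-/

namespace Vale.Agent.P181.Deep

noncomputable section

variable (a q r : ℕ)

/-- slots: q for each colour, and r free ones -/
abbrev Slot : Type := (Fin a × Fin q) ⊕ Fin r

/-- cliques: base, link and single -/
abbrev Cl : Type := Fin q ⊕ (Fin (q - 1) × Fin (Nat.clog 2 a)) ⊕ (Fin r × Fin a)

variable {a q r}

/-- the half of a colour -/
def half (a : ℕ) (j0 : Fin a) : ℕ := if (j0 : ℕ) < a / 2 then 0 else 1

/-- the level used by a single clique -/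
def lev (h2 : 2 * r ≤ q) (s : Fin r) (j0 : Fin a) : Fin q :=
  ⟨2 * (s : ℕ) + half a j0, by unfold half; split_ifs <;> omega⟩

/-- the slot of intended colour j in a clique -/
def mem (h2 : 2 * r ≤ q) : Cl a q r → Fin a → Slot a q r
  | .inl t, j => .inl (j, t)
  | .inr (.inl (t, k)), j =>
    if Nat.testBit j k then .inl (j, ⟨t, by omega⟩) else .inl (j, ⟨t + 1, by omega⟩)
  | .inr (.inr (s, j0)), j => if j = j0 then .inr s else .inl (j, lev h2 s j0)

lemma mem_inl_fst (h2 : 2 * r ≤ q) {c : Cl a q r} {j j' : Fin a} {t : Fin q}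
    (h : mem h2 c j = .inl (j', t)) : j' = j := by
  rcases c with _ | ⟨t0, k⟩ | ⟨s, j0⟩ <;> simp only [mem] at h <;>
    (try split_ifs at h) <;> simp_all

lemma mem_inr_iff (h2 : 2 * r ≤ q) (c : Cl a q r) (j : Fin a) (s : Fin r) :
    mem h2 c j = .inr s ↔ c = .inr (.inr (s, j)) := by
  rcases c with _ | ⟨t0, k⟩ | ⟨s', j0⟩ <;> simp only [mem] <;> (try split_ifs with h) <;>
    simp_all
  intro _
  exact Ne.symm h

/-- the number of uses of a coloured slot -/
def usage (h2 : 2 * r ≤ q) (j : Fin a) (t : Fin q) : ℕ :=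
  (Finset.univ.filter fun c : Cl a q r => mem h2 c j = .inl (j, t)).card

/-- the budget for the single cliques -/
def singleBudget (a r : ℕ) : ℕ := if r = 0 then 0 else (a + 1) / 2

lemma usage_le (h2 : 2 * r ≤ q) (j : Fin a) (t : Fin q) :
    usage h2 j t ≤ 1 + Nat.clog 2 a + singleBudget a r := by
  classical
  let g : Cl a q r → Fin 1 ⊕ Fin (Nat.clog 2 a) ⊕ Fin (singleBudget a r) := fun c =>
    match c with
    | .inl _ => .inl 0
    | .inr (.inl (_, k)) => .inr (.inl k)
    | .inr (.inr (s, j0)) => .inr (.inr ⟨if (j0 : ℕ) < a / 2 then (j0 : ℕ) else j0 - a / 2, by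
        have hs := s.2
        have hj := j0.2
        have hr : r ≠ 0 := by omega
        simp only [singleBudget, if_neg hr]
        split_ifs <;> omega⟩)
  calc usage h2 j t ≤ (Finset.univ : Finset (Fin 1 ⊕ Fin (Nat.clog 2 a) ⊕
        Fin (singleBudget a r))).card := by
        refine Finset.card_le_card_of_injOn g (fun c _ => Finset.mem_univ _) ?_
        intro c hc d hd he
        simp only [Finset.coe_filter, Finset.mem_univ, true_and, Set.mem_ofPred_eq] at hc hd
        rcases c with t1 | ⟨t1, k1⟩ | ⟨s1, j1⟩ <;> rcases d with t2 | ⟨t2, k2⟩ | ⟨s2, j2⟩ <;>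
          simp only [g, Sum.inl.injEq, Sum.inr.injEq, reduceCtorEq, Fin.mk.injEq] at he
        · simp only [mem, Sum.inl.injEq, Prod.mk.injEq, true_and] at hc hd
          rw [hc, hd]
        · subst he
          simp only [mem] at hc hd
          cases hb : Nat.testBit (j : ℕ) (k1 : ℕ) <;>
            simp only [hb, ↓reduceIte, Bool.false_eq_true, Sum.inl.injEq, Prod.mk.injEq,
              true_and, Fin.ext_iff] at hc hd <;>
            (rw [show t1 = t2 from Fin.ext (by omega)])
        · simp only [mem] at hc hd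
          by_cases h1 : j = j1
          · simp [h1] at hc
          by_cases h3 : j = j2
          · simp [h3] at hd
          simp only [if_neg h1, if_neg h3, Sum.inl.injEq, Prod.mk.injEq, true_and] at hc hd
          simp only [lev, half, Fin.ext_iff] at hc hd
          have hs : (s1 : ℕ) = s2 ∧ (j1 : ℕ) = j2 := by
            by_cases e1 : (j1 : ℕ) < a / 2 <;> by_cases e2 : (j2 : ℕ) < a / 2 <;>
              simp only [e1, e2, ↓reduceIte] at hc hd he <;> constructor <;> omega
          rw [Fin.ext hs.1, Fin.ext hs.2]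
    _ = _ := by simp; omega

/-- the intended roles for a permutation of the colours -/
def role0 (φ : Equiv.Perm (Fin a)) : Slot a q r → Option (Fin a) :=
  Sum.elim (fun x => some (φ x.1)) fun _ => none

lemma role0_mem (φ : Equiv.Perm (Fin a)) :
    role0 φ ∈ roles (Slot a q r) a q r := by
  classical
  simp only [roles, Finset.mem_filter, Finset.mem_univ, true_and]
  constructor
  · refine Eq.trans (congrArg Finset.card (?_ : _ = (Finset.univ : Finset (Fin r)).map
      ⟨Sum.inr, Sum.inr_injective⟩)) (by simp)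
    refine Finset.ext fun z => ?_
    rw [Finset.mem_filter]
    rcases z with x | x <;> simp [role0]
  · intro j
    refine Eq.trans (congrArg Finset.card (?_ : _ = (Finset.univ : Finset (Fin q)).map
      ⟨fun t => Sum.inl (φ.symm j, t), fun x y h => by simpa using h⟩)) (by simp)
    refine Finset.ext fun z => ?_
    rw [Finset.mem_filter]
    rcases z with ⟨x, y⟩ | x
    · refine Iff.trans ?_ Finset.mem_map.symm
      constructor
      · intro h
        have h' : φ x = j := by simpa [role0] using h
        subst h'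
        exact ⟨y, Finset.mem_univ _,
          congrArg (fun z => (Sum.inl (z, y) : Slot a q r)) (φ.symm_apply_apply x)⟩
      · rintro ⟨t, _, ht⟩
        have h' : φ.symm j = x := congrArg Prod.fst (Sum.inl.inj ht)
        simp [role0, ← h']
    · simp [role0]

lemma perm_eq_of_ne {α : Type*} [Fintype α] [DecidableEq α] (p p' : Equiv.Perm α) (x : α)
    (h : ∀ y, y ≠ x → p y = p' y) : p x = p' x := by
  by_contra hne
  obtain ⟨y, hy⟩ := p.surjective (p' x)
  by_cases hyx : y = x
  · subst hyx; exact hne hy
  · exact hyx (p'.injective ((h y hyx).symm.trans hy))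

/-- The combinatorial rigidity. -/
lemma rigid (ha : 2 ≤ a) (hq : 1 ≤ q) (h2 : 2 * r ≤ q) (h4 : r ≠ 0 → 4 ≤ a)
    {F₀ : Type*} [Fintype F₀] (slot : F₀ → Slot a q r) (col : F₀ → Fin a)
    (hslot : ∀ x, ∃ t, slot x = .inl (col x, t))
    (ρ : Slot a q r → Option (Fin a)) (π : Cl a q r → Equiv.Perm (Fin a)) (κ : F₀ → Fin a)
    (hρ : ρ ∈ roles (Slot a q r) a q r) (he : expo (mem h2) slot π κ = mu ρ) :
    ∃ φ : Equiv.Perm (Fin a), ρ = role0 φ ∧ π = (fun _ => φ) ∧ κ = fun x => φ (col x) := by
  classical
  have hrole : ∀ (s : Slot a q r) (k k' : Fin a), ρ s = some k →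
      expo (mem h2) slot π κ (s, k') ≠ 0 → k' = k := by
    intro s k k' hs hne
    rw [he, mu_apply, hs] at hne
    by_contra hk
    simp [Ne.symm hk] at hne
  have F1 : ∀ c j k, ρ (mem h2 c j) = some k → π c j = k := by
    intro c j k hs
    refine hrole _ _ _ hs (Nat.pos_iff_ne_zero.1 ?_)
    have h1 := Finset.single_le_sum (f := fun c => ∑ j,
      (Finsupp.single (mem h2 c j, π c j) 1 : (Slot a q r × Fin a) →₀ ℕ)
        (mem h2 c j, π c j)) (fun _ _ => Nat.zero_le _) (Finset.mem_univ c)
    simp only [expo, Finsupp.add_apply, Finsupp.finsetSum_apply]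
    have h2' : 0 < ∑ c', ∑ j', (Finsupp.single (mem h2 c' j', π c' j') 1 :
        (Slot a q r × Fin a) →₀ ℕ) (mem h2 c j, π c j) := by
      refine Finset.sum_pos' (fun _ _ => Nat.zero_le _) ⟨c, Finset.mem_univ _, ?_⟩
      refine Finset.sum_pos' (fun _ _ => Nat.zero_le _) ⟨j, Finset.mem_univ _, ?_⟩
      simp
    omega
  have F2 : ∀ x k, ρ (slot x) = some k → κ x = k := by
    intro x k hs
    refine hrole _ _ _ hs (Nat.pos_iff_ne_zero.1 ?_)
    simp only [expo, Finsupp.add_apply, Finsupp.finsetSum_apply]
    have h2' : 0 < ∑ x', (Finsupp.single (slot x', κ x') 1 :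
        (Slot a q r × Fin a) →₀ ℕ) (slot x, κ x) := by
      refine Finset.sum_pos' (fun _ _ => Nat.zero_le _) ⟨x, Finset.mem_univ _, ?_⟩
      simp
    omega
  -- every pair of levels of a single with a colour is dirty
  have dirty : ∀ (s : Fin r) (i : Fin a) (b : Bool), ρ (.inr s) = some i →
      ∃ j, ρ (.inl (j, (⟨2 * (s : ℕ) + b.toNat, by
        have := s.2; cases b <;> simp <;> omega⟩ : Fin q))) = none := by
    intro s i b hs
    by_contra hne
    push Not at hne
    have ha4 := h4 (by have := s.2; omega)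
    set t : Fin q := ⟨2 * (s : ℕ) + b.toNat, by
      have := s.2; cases b <;> simp <;> omega⟩ with ht
    have key : ∀ j0 : Fin a, half a j0 = b.toNat → π (.inl t) j0 = i := by
      intro j0 hj0
      have hlev : lev h2 s j0 = t := Fin.ext (by simp [lev, ht, hj0])
      have h1 := perm_eq_of_ne (π (.inr (.inr (s, j0)))) (π (.inl t)) j0 fun y hy => by
        obtain ⟨k, hk⟩ := Option.ne_none_iff_exists'.1 (hne y)
        rw [F1 _ y k (by simp [mem, hy, hlev, hk]), F1 (.inl t) y k (by simp [mem, hk])]
      rw [← h1]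
      exact F1 _ _ _ (by simp [mem, hs])
    cases b
    · have e := (key ⟨0, by omega⟩ (by simp [half]; omega)).trans
        (key ⟨1, by omega⟩ (by simp [half]; omega)).symm
      simpa using (π (.inl t)).injective e
    · have e := (key ⟨a - 1, by omega⟩ (by simp [half]; omega)).trans
        (key ⟨a - 2, by omega⟩ (by simp [half]; omega)).symm
      have := congrArg Fin.val ((π (.inl t)).injective e)
      simp at this
      omega
  simp only [roles, Finset.mem_filter, Finset.mem_univ, true_and] at hρ
  -- no single has a colour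
  have hsingle : ∀ s : Fin r, ρ (.inr s) = none := by
    by_contra hcon
    push Not at hcon
    obtain ⟨s₀, hs₀⟩ := hcon
    choose w hw using fun (x : {s : Fin r // ρ (.inr s) ≠ none} × Bool) =>
      let h := Option.ne_none_iff_exists'.1 x.1.2
      dirty x.1.1 h.choose x.2 h.choose_spec
    let f : ({s : Fin r // ρ (.inr s) ≠ none} × Bool) ⊕ {s : Fin r // ρ (.inr s) = none} →
        {z : Slot a q r // ρ z = none} :=
      Sum.elim (fun x => ⟨_, hw x⟩) fun s => ⟨.inr s.1, s.2⟩
    have hf : Function.Injective f := by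
      rintro (x | x) (y | y) h <;>
        simp only [f, Sum.elim_inl, Sum.elim_inr, Subtype.mk.injEq, Sum.inl.injEq, Sum.inr.injEq,
          reduceCtorEq, Prod.mk.injEq] at h
      · obtain ⟨⟨s1, h1⟩, b1⟩ := x
        obtain ⟨⟨s2, h3⟩, b2⟩ := y
        have := congrArg Fin.val h.2
        simp only at this
        cases b1 <;> cases b2 <;> simp at this <;>
          first | (obtain rfl : s1 = s2 := Fin.ext (by omega); rfl) | omega
      · rw [Subtype.ext h]
    have h1 := Fintype.card_le_of_injective f hf
    rw [Fintype.card_sum, Fintype.card_prod, Fintype.card_bool,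
      Fintype.card_subtype_compl, Fintype.card_fin, Fintype.card_subtype, Fintype.card_subtype,
      hρ.1] at h1
    have h3 : (Finset.univ.filter fun s : Fin r => ρ (.inr s) = none).card < r := by
      refine lt_of_lt_of_eq (Finset.card_lt_card (t := Finset.univ) ?_) (by simp)
      rw [Finset.ssubset_univ_iff]
      intro h
      have := (Finset.mem_filter.1 (h.ge (Finset.mem_univ s₀))).2
      exact hs₀ this
    omega
  have hpure : ∀ x : Fin a × Fin q, ρ (.inl x) ≠ none := by
    intro x hx
    have hsub : insert (Sum.inl x : Slot a q r) (Finset.univ.map ⟨Sum.inr, Sum.inr_injective⟩) ⊆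
        Finset.univ.filter fun s => ρ s = none := by
      intro z hz
      rcases Finset.mem_insert.1 hz with rfl | hz
      · simpa using hx
      · obtain ⟨s, _, rfl⟩ := Finset.mem_map.1 hz
        simpa using hsingle s
    have := Finset.card_le_card hsub
    rw [Finset.card_insert_of_notMem (by simp), Finset.card_map, Finset.card_univ,
      Fintype.card_fin, hρ.1] at this
    omega
  have hbase : ∀ j t, ρ (.inl (j, t)) = some (π (.inl t) j) := by
    intro j t
    obtain ⟨k, hk⟩ := Option.ne_none_iff_exists'.1 (hpure (j, t))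
    rw [hk, F1 (.inl t) j k (by simp [mem, hk])]
  -- consecutive levels agree
  have step : ∀ (t : ℕ) (ht : t + 1 < q),
      π (.inl ⟨t, by omega⟩) = π (.inl ⟨t + 1, ht⟩) := by
    intro t ht
    set φ := π (.inl ⟨t, by omega⟩)
    set φ' := π (.inl ⟨t + 1, ht⟩)
    let σ : Equiv.Perm (Fin a) := φ'.trans φ.symm
    have hbit : ∀ (k : Fin (Nat.clog 2 a)) (j : Fin a),
        Nat.testBit (σ j) k = Nat.testBit j k := by
      intro k
      let p := π (.inr (.inl (⟨t, by omega⟩, k)))
      let ψ : Equiv.Perm (Fin a) := p.trans φ.symm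
      have hψ : ∀ j, ψ j = if Nat.testBit j k then j else σ j := by
        intro j
        by_cases hb : Nat.testBit (j : ℕ) (k : ℕ)
        · rw [if_pos hb]
          have : p j = φ j := F1 _ _ _ (by simp [mem, hb, hbase, φ])
          simp [ψ, this]
        · rw [if_neg hb]
          have : p j = φ' j := F1 _ _ _ (by simp [mem, hb, hbase, φ'])
          simp [ψ, σ, this]
      let T : Finset (Fin a) := Finset.univ.filter fun j => ¬ Nat.testBit (j : ℕ) (k : ℕ)
      have hmaps : T.image σ ⊆ T := by
        intro y hy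
        obtain ⟨j, hj, rfl⟩ := Finset.mem_image.1 hy
        simp only [T, Finset.mem_filter, Finset.mem_univ, true_and] at hj ⊢
        intro hb
        have : ψ (σ j) = ψ j := by rw [hψ, hψ, if_pos hb, if_neg hj]
        exact hj (ψ.injective this ▸ hb)
      have himg : T.image σ = T := Finset.eq_of_subset_of_card_le hmaps
        (Finset.card_image_of_injective _ σ.injective).ge
      intro j
      have h1 : j ∈ T ↔ σ j ∈ T := by
        conv_rhs => rw [← himg]
        simp [σ.injective.eq_iff]
      simp only [T, Finset.mem_filter, Finset.mem_univ, true_and] at h1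
      by_cases hb : Nat.testBit (j : ℕ) (k : ℕ) <;> simp_all
    refine Equiv.ext fun j => ?_
    have hj : σ j = j := by
      refine Fin.ext (Nat.eq_of_testBit_eq fun k => ?_)
      by_cases hk : k < Nat.clog 2 a
      · exact hbit ⟨k, hk⟩ j
      · have hlt : a ≤ 2 ^ k := le_trans (Nat.le_pow_clog (by norm_num) a)
          (Nat.pow_le_pow_right (by norm_num) (by omega))
        rw [Nat.testBit_lt_two_pow (lt_of_lt_of_le (σ j).2 hlt),
          Nat.testBit_lt_two_pow (lt_of_lt_of_le j.2 hlt)]
    have := congrArg φ hj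
    simpa [σ] using this.symm
  let φ := π (.inl ⟨0, hq⟩)
  have hconst : ∀ t : Fin q, π (.inl t) = φ := by
    rintro ⟨t, ht⟩
    induction t with
    | zero => rfl
    | succ n ih => exact (step n ht).symm.trans (ih (by omega))
  have hrole0 : ρ = role0 φ := by
    funext z
    rcases z with ⟨j, t⟩ | s
    · rw [hbase, hconst]; rfl
    · exact hsingle s
  refine ⟨φ, hrole0, ?_, ?_⟩
  · funext c
    refine Equiv.ext fun j => ?_
    have hsome : ∀ (c : Cl a q r) (j' : Fin a) (t : Fin q), mem h2 c j' = .inl (j', t) →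
        π c j' = φ j' := fun c j' t h => F1 _ _ _ (by rw [h, hrole0]; rfl)
    rcases c with t | ⟨t, k⟩ | ⟨s, j0⟩
    · rw [hconst]
    · cases hb : Nat.testBit (j : ℕ) (k : ℕ)
      · exact hsome _ _ ⟨t + 1, by omega⟩ (by simp [mem, hb])
      · exact hsome _ _ ⟨t, by omega⟩ (by simp [mem, hb])
    · by_cases hj : j = j0
      · subst hj
        exact perm_eq_of_ne _ φ j fun y hy => hsome _ _ (lev h2 s j) (by simp [mem, hy])
      · exact hsome _ _ (lev h2 s j0) (by simp [mem, hj])
  · funext x
    obtain ⟨t, ht⟩ := hslot x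
    exact F2 x _ (by rw [ht, hrole0]; rfl)

end

end Vale.Agent.P181.Deep
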