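import Vale.Agent.P181.Deep.Pair

/-!
The generic determinant is prime, and highest weight vectors are divisible by its powers.
-/

open MvPolynomial

namespace Vale.Agent.P181.Deep

noncomputable section

variable {a : ℕ}

/-- the generic matrix -/
def gmat (a : ℕ) : Matrix (Fin a) (Fin a) (MvPolynomial (Fin a × Fin a) ℂ) :=
  Matrix.mvPolynomialX (Fin a) (Fin a) ℂ

/-- the generic determinant -/
def delta (a : ℕ) : MvPolynomial (Fin a × Fin a) ℂ := (gmat a).det

lemma irreducible_det_of_injective {τ : Type*} (n : ℕ) (hn : 1 ≤ n) :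
    ∀ f : Fin n × Fin n → τ, Function.Injective f →
      Irreducible (Matrix.of fun i j => (X (f (i, j)) : MvPolynomial τ ℂ)).det := by
  induction n, hn using Nat.le_induction with
  | base =>
    intro f _
    rw [Matrix.det_fin_one]
    exact (X_prime ..).irreducible
  | succ n hn ih =>
    classical
    intro f hf
    set l := Fin.last n
    set A : Matrix (Fin (n + 1)) (Fin (n + 1)) (MvPolynomial τ ℂ) :=
      Matrix.of fun i j => X (f (i, j)) with hA
    set F : MvPolynomial τ ℂ := (A.submatrix Fin.castSucc Fin.castSucc).det with hF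
    set G : MvPolynomial τ ℂ := ∑ j ∈ ({l} : Finset (Fin (n + 1)))ᶜ,
      (-1) ^ ((l : ℕ) + (j : ℕ)) * A l j * (A.submatrix l.succAbove j.succAbove).det with hG
    have hdet : A.det = F * X (f (l, l)) + G := by
      rw [Matrix.det_succ_row A l, Fintype.sum_eq_add_sum_compl l]
      congr 1
      rw [(Even.add_self (l : ℕ)).neg_one_pow, one_mul, mul_comm]
      simp [hF, hA, l, Fin.succAbove_last]
    have hFirr : Irreducible F :=
      ih (fun p => f (p.1.castSucc, p.2.castSucc))
        (hf.comp ((Fin.castSucc_injective n).prodMap (Fin.castSucc_injective n)))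
    have hvars : ∀ (g : Fin n → Fin (n + 1)), f (l, l) ∉
        ((A.submatrix l.succAbove g).det).vars := by
      intro g hmem
      have : (A.submatrix l.succAbove g).det =
          rename (fun p : Fin n × Fin n => f (l.succAbove p.1, g p.2))
            (Matrix.of fun i j => (X (i, j) : MvPolynomial (Fin n × Fin n) ℂ)).det := by
        rw [AlgHom.map_det]
        congr 1
        ext i j
        simp [hA]
      rw [this] at hmem
      obtain ⟨p, _, hp⟩ := Finset.mem_image.1 (vars_rename _ _ hmem)
      exact Fin.succAbove_ne l _ (congrArg Prod.fst (hf hp))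
    rw [hdet]
    refine irreducible_mul_X_add F G _ hFirr.ne_zero ?_ ?_ ?_
    · have := hvars Fin.castSucc
      simpa [hF, l, Fin.succAbove_last] using this
    · intro hmem
      obtain ⟨j, hj, hmem⟩ := Finset.mem_biUnion.1 (vars_sum_subset _ _ hmem)
      rcases Finset.mem_union.1 (vars_mul _ _ hmem) with h | h
      · rcases Finset.mem_union.1 (vars_mul _ _ h) with h | h
        · have h1 := vars_pow _ _ h
          simp at h1
        · simp only [hA, Matrix.of_apply, vars_X, Finset.mem_singleton] at h
          have := congrArg Prod.snd (hf h)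
          simp only [Finset.mem_compl, Finset.mem_singleton] at hj
          exact hj this.symm
      · exact hvars _ h
    · rw [hFirr.isRelPrime_iff_not_dvd]
      intro hdvd
      have hdvd' : F ∣ A.det := hdet ▸ dvd_add (dvd_mul_right _ _) hdvd
      let z0 : Fin n := ⟨0, hn⟩
      let π : Equiv.Perm (Fin (n + 1)) := Equiv.swap z0.castSucc l
      let v : τ → ℂ := Function.extend f (fun p => if π p.1 = p.2 then 1 else 0) 0
      have hv : (eval v).mapMatrix A = π.permMatrix ℂ := by
        ext i j
        simp [hA, v, hf.extend_apply, Equiv.Perm.permMatrix, PEquiv.toMatrix_apply,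
          Equiv.toPEquiv_apply, eq_comm]
      have h0 : eval v F = 0 := by
        rw [hF, RingHom.map_det]
        refine Matrix.det_eq_zero_of_row_eq_zero z0 fun j => ?_
        simp [hA, v, hf.extend_apply, π, l, (Fin.castSucc_ne_last j).symm]
      have h1 : eval v A.det = 0 := by
        obtain ⟨w, hw⟩ := hdvd'
        rw [hw, map_mul, h0, zero_mul]
      rw [RingHom.map_det, hv, Matrix.det_permutation] at h1
      simp at h1

lemma prime_delta (ha : 1 ≤ a) : Prime (delta a) :=
  (irreducible_det_of_injective a ha id Function.injective_id).prime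

lemma pderiv_delta (p k : Fin a) :
    pderiv (p, k) (delta a) = (gmat a).adjugate k p := by
  classical
  rw [Matrix.adjugate_apply, delta, Matrix.det_apply, Matrix.det_apply, map_sum]
  refine Finset.sum_congr rfl fun σ _ => ?_
  rw [Units.smul_def, Units.smul_def, map_zsmul]
  congr 1
  rw [Fintype.prod_eq_mul_prod_compl k, Fintype.prod_eq_mul_prod_compl k]
  have h : pderiv (p, k) (∏ x ∈ ({k} : Finset (Fin a))ᶜ, gmat a (σ x) x) = 0 := by
    refine pderiv_eq_zero_of_notMem_vars fun hmem => ?_
    obtain ⟨x, hx, hmem⟩ := Finset.mem_biUnion.1 (vars_prod _ hmem)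
    simp only [gmat, Matrix.mvPolynomialX_apply, vars_X, Finset.mem_singleton] at hmem
    simp only [Finset.mem_compl, Finset.mem_singleton] at hx
    exact hx (congrArg Prod.snd hmem).symm
  rw [pderiv_mul, h, mul_zero, add_zero]
  by_cases hk : σ k = p
  · have h1 : pderiv (p, k) (gmat a (σ k) k) = 1 := by
      simp [gmat, hk]
    rw [h1, one_mul, hk, Matrix.updateRow_self, Pi.single_eq_same, one_mul]
    refine Finset.prod_congr rfl fun x hx => ?_
    rw [Matrix.updateRow_ne]
    intro hx'
    exact (by simpa using hx : x ≠ k) (σ.injective (hx'.trans hk.symm))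
  · have h1 : pderiv (p, k) (gmat a (σ k) k) = 0 := by
      simp [gmat, hk]
    rw [h1, zero_mul]
    symm
    have hx : σ.symm p ≠ k := fun h => hk (by rw [← h]; simp)
    refine mul_eq_zero_of_right _ (Finset.prod_eq_zero (i := σ.symm p) (by simpa using hx) ?_)
    simp [Pi.single_eq_of_ne hx]

lemma polar_delta (i k : Fin a) :
    polar i k (delta a) = if i = k then delta a else 0 := by
  have h := congrFun (congrFun (Matrix.adjugate_mul (gmat a)) k) i
  rw [Matrix.mul_apply] at h
  rw [polar_apply]
  calc ∑ p, X (p, i) * pderiv (p, k) (delta a)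
      = ∑ p, (gmat a).adjugate k p * gmat a p i := by
        refine Finset.sum_congr rfl fun p _ => ?_
        rw [pderiv_delta, mul_comm]
        simp [gmat]
    _ = _ := by
        rw [h]
        simp [delta, Matrix.one_apply, eq_comm]

lemma delta_dvd {lam : Fin a → ℕ} (l : Fin a) {f : MvPolynomial (Fin a × Fin a) ℂ}
    (h0 : ∀ i, i ≠ l → polar i l f = 0) (h1 : polar l l f = (lam l : ℂ) • f) (hl : lam l ≠ 0) :
    delta a ∣ f := by
  have hv : Matrix.vecMul (fun p => pderiv (p, l) f) (gmat a) =
      Pi.single l ((lam l : ℂ) • f) := by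
    funext i
    have : Matrix.vecMul (fun p => pderiv (p, l) f) (gmat a) i = polar i l f := by
      rw [polar_apply]
      simp [Matrix.vecMul, dotProduct, gmat, mul_comm]
    rw [this]
    by_cases hi : i = l
    · subst hi; rw [h1, Pi.single_eq_same]
    · rw [h0 i hi, Pi.single_eq_of_ne hi]
  have h2 := congrArg (fun w => Matrix.vecMul w (gmat a).adjugate l) hv
  simp only [Matrix.vecMul_vecMul, Matrix.mul_adjugate, Matrix.single_vecMul] at h2
  have h3 : delta a * pderiv (l, l) f = ((lam l : ℂ) • f) * (gmat a).adjugate l l := by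
    simpa [Matrix.vecMul, dotProduct, delta, Matrix.one_apply, mul_comm] using h2
  have ha : 1 ≤ a := Nat.one_le_of_lt l.2
  rcases (prime_delta ha).dvd_or_dvd ⟨_, h3.symm⟩ with h | h
  · rwa [smul_eq_C_mul, IsUnit.dvd_mul_left] at h
    exact (IsUnit.mk0 _ (by exact_mod_cast hl)).map C
  · exfalso
    let z : Fin a → ℂ := fun j => if j = l then 0 else 1
    let e : MvPolynomial (Fin a × Fin a) ℂ →+* ℂ := eval fun p => Matrix.diagonal z p.1 p.2
    have hmap : e.mapMatrix (gmat a) = Matrix.diagonal z := by
      ext i j; simp [e, gmat]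
    have he : e (delta a) = 0 := by
      rw [delta, RingHom.map_det, hmap, Matrix.det_diagonal]
      exact Finset.prod_eq_zero (Finset.mem_univ l) (by simp [z])
    have he' : e ((gmat a).adjugate l l) = 1 := by
      have := congrFun (congrFun (e.map_adjugate (gmat a)) l) l
      rw [RingHom.mapMatrix_apply, Matrix.map_apply, hmap] at this
      rw [this, Matrix.adjugate_diagonal, Matrix.diagonal_apply_eq]
      exact Finset.prod_eq_one fun j hj => by simp [z, Finset.ne_of_mem_erase hj]
    obtain ⟨w, hw⟩ := h
    rw [hw, map_mul, he, zero_mul] at he'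
    exact zero_ne_one he'

lemma delta_pow_dvd (l : Fin a) (c : ℕ) :
    ∀ (lam : Fin a → ℕ) (f : MvPolynomial (Fin a × Fin a) ℂ),
      (∀ i, i ≠ l → polar i l f = 0) → polar l l f = (lam l : ℂ) • f → c ≤ lam l →
        delta a ^ c ∣ f := by
  induction c with
  | zero => intros; simp
  | succ c ih =>
    intro lam f h0 h1 hc
    obtain ⟨g, rfl⟩ := delta_dvd l h0 h1 (by omega)
    have hne : delta a ≠ 0 := (prime_delta (Nat.one_le_of_lt l.2)).ne_zero
    have hg : ∀ i, polar i l g = if i = l then ((lam l - 1 : ℕ) : ℂ) • g else 0 := by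
      intro i
      refine mul_left_cancel₀ hne ?_
      by_cases hi : i = l
      · subst hi
        have := h1
        rw [Derivation.leibniz, polar_delta, if_pos rfl, smul_eq_mul, smul_eq_mul] at this
        rw [if_pos rfl, Nat.cast_sub (by omega), sub_smul, mul_sub, Nat.cast_one, one_smul,
          mul_smul_comm, ← this]
        ring
      · have := h0 i hi
        rw [Derivation.leibniz, polar_delta, if_neg hi, smul_eq_mul, smul_eq_mul, mul_zero,
          add_zero] at this
        rw [if_neg hi, mul_zero, this]
    rw [pow_succ']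
    exact mul_dvd_mul_left _ (ih (fun j => lam j - 1) g (fun i hi => by simp [hg, hi])
      (by simp [hg]) (by omega))

end

end Vale.Agent.P181.Deep
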