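import Vale.Agent.P181.Deep.Map
import Vale.Agent.P181.Deep.Det

/-!
Expansion of the coefficient map on products of minors and variables.
-/

open MvPolynomial

namespace Vale.Agent.P181.Deep

noncomputable section

variable {S : Type*} [Fintype S] [DecidableEq S] {a : ℕ}
  {C₀ F₀ : Type*} [Fintype C₀] [DecidableEq C₀] [Fintype F₀] [DecidableEq F₀]

/-- product of full minors (one per clique) and single variables -/
def cliquePoly (mem : C₀ → Fin a → S) (slot : F₀ → S) (ι : F₀ → Fin a) :
    MvPolynomial (S × Fin a) ℂ :=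
  (∏ c, (Matrix.of fun j i => (X (mem c j, i) : MvPolynomial (S × Fin a) ℂ)).det) *
    ∏ x, X (slot x, ι x)

/-- exponent of one term of the expansion -/
def expo (mem : C₀ → Fin a → S) (slot : F₀ → S) (π : C₀ → Equiv.Perm (Fin a))
    (κ : F₀ → Fin a) : (S × Fin a) →₀ ℕ :=
  (∑ c, ∑ j, Finsupp.single (mem c j, π c j) 1) + ∑ x, Finsupp.single (slot x, κ x) 1

/-- value of one term of the expansion -/
def termVal (ι : F₀ → Fin a) (π : C₀ → Equiv.Perm (Fin a))
    (κ : F₀ → Fin a) : MvPolynomial (Fin a × Fin a) ℂ :=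
  (∏ c, ((Equiv.Perm.sign (π c) : ℤ) : MvPolynomial (Fin a × Fin a) ℂ)) * ∏ x, X (κ x, ι x)

lemma prod_monomial {σ R ι : Type*} [CommSemiring R] (s : Finset ι) (e : ι → σ →₀ ℕ) (c : ι → R) :
    (∏ x ∈ s, monomial (e x) (c x)) = monomial (∑ x ∈ s, e x) (∏ x ∈ s, c x) := by
  classical
  induction s using Finset.induction_on with
  | empty => simp
  | insert x s hx h => simp [Finset.prod_insert hx, Finset.sum_insert hx, h, monomial_mul]

lemma theta_minor (g : Fin a → S) :
    theta (Matrix.of fun j i => (X (g j, i) : MvPolynomial (S × Fin a) ℂ)).det =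
      C (delta a) * ∑ π : Equiv.Perm (Fin a),
        monomial (∑ j, Finsupp.single (g j, π j) 1) ((Equiv.Perm.sign π : ℤ) :
          MvPolynomial (Fin a × Fin a) ℂ) := by
  have h : theta.mapMatrix (Matrix.of fun j i => (X (g j, i) : MvPolynomial (S × Fin a) ℂ)) =
      Matrix.of (fun j k => (X (g j, k) :
        MvPolynomial (S × Fin a) (MvPolynomial (Fin a × Fin a) ℂ))) *
        (C : MvPolynomial (Fin a × Fin a) ℂ →+* _).mapMatrix (gmat a) := by
    ext1 j i
    simp [Matrix.mul_apply, theta, gmat]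
  rw [AlgHom.map_det, h, Matrix.det_mul, ← RingHom.map_det, ← delta, mul_comm,
    ← Matrix.det_transpose, Matrix.det_apply']
  congr 1
  refine Finset.sum_congr rfl fun π _ => ?_
  simp only [Matrix.transpose_apply, Matrix.of_apply, X, prod_monomial, Finset.prod_const_one]
  rw [show ((Equiv.Perm.sign π : ℤ) : MvPolynomial (S × Fin a) (MvPolynomial (Fin a × Fin a) ℂ)) =
    C ((Equiv.Perm.sign π : ℤ) : MvPolynomial (Fin a × Fin a) ℂ) by simp, C_mul_monomial, mul_one]

lemma theta_cliquePoly (mem : C₀ → Fin a → S) (slot : F₀ → S) (ι : F₀ → Fin a) :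
    theta (cliquePoly mem slot ι) = C (delta a ^ Fintype.card C₀) *
      ∑ π : C₀ → Equiv.Perm (Fin a), ∑ κ : F₀ → Fin a,
        monomial (expo mem slot π κ) (termVal ι π κ) := by
  rw [cliquePoly, map_mul, map_prod, map_prod]
  simp only [theta_minor, theta_X, Finset.prod_mul_distrib, Finset.prod_const, Finset.card_univ]
  rw [← map_pow, mul_assoc]
  congr 1
  have h : ∀ (s : S) (i j : Fin a), (X (s, j) *
      C (X (j, i)) : MvPolynomial (S × Fin a) (MvPolynomial (Fin a × Fin a) ℂ)) =
      monomial (Finsupp.single (s, j) 1) (X (j, i)) := by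
    intro s i j
    rw [mul_comm]
    simp only [X, C_mul_monomial, mul_one]
  simp only [h, Fintype.prod_sum, prod_monomial, Finset.sum_mul, Finset.mul_sum, monomial_mul]
  rw [Finset.sum_comm]
  rfl

lemma bigL_cliquePoly (q r : ℕ) (mem : C₀ → Fin a → S) (slot : F₀ → S) (ι : F₀ → Fin a) :
    bigL q r (cliquePoly mem slot ι) = delta a ^ Fintype.card C₀ *
      ∑ x ∈ Finset.univ.filter (fun x : (S → Option (Fin a)) ×
          ((C₀ → Equiv.Perm (Fin a)) × (F₀ → Fin a)) =>
        x.1 ∈ roles S a q r ∧ expo mem slot x.2.1 x.2.2 = mu x.1),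
        termVal ι x.2.1 x.2.2 := by
  rw [bigL_apply, theta_cliquePoly]
  simp only [coeff_C_mul, ← Finset.mul_sum]
  congr 1
  rw [Finset.sum_filter, Fintype.sum_prod_type,
    ← Finset.sum_filter_add_sum_filter_not Finset.univ (· ∈ roles S a q r)]
  have h1 : Finset.univ.filter (· ∈ roles S a q r) = roles S a q r := by ext; simp
  rw [h1]
  symm
  refine Eq.trans (congrArg₂ (· + ·) (Finset.sum_congr rfl fun ρ hρ => ?_)
    (Finset.sum_eq_zero fun ρ hρ => ?_)) (add_zero _)
  · rw [coeff_sum, Fintype.sum_prod_type]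
    refine Finset.sum_congr rfl fun π _ => ?_
    rw [coeff_sum]
    refine Finset.sum_congr rfl fun κ _ => ?_
    simp [coeff_monomial, hρ]
  · simp only [Finset.mem_filter] at hρ
    simp [hρ.2]

end

end Vale.Agent.P181.Deep
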