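import Vale.Agent.P181.Deep.Comb

/-!
The image of the coefficient map, and the injection of highest weight spaces.
-/

open MvPolynomial

namespace Vale.Agent.P181.Deep

noncomputable section

variable {a q r : ℕ}

lemma card_cl : Fintype.card (Cl a q r) = q + (q - 1) * Nat.clog 2 a + r * a := by
  simp [Fintype.card_sum, add_assoc]

lemma usage_sum (h2 : 2 * r ≤ q) (j : Fin a) :
    (∑ t, usage h2 j t) + r = Fintype.card (Cl a q r) := by
  classical
  rw [← Finset.card_univ, Finset.card_eq_sum_card_fiberwise (s := Finset.univ)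
    (f := fun c : Cl a q r => mem h2 c j) (t := Finset.univ) (fun _ _ => Finset.mem_univ _),
    Fintype.sum_sum_type, Fintype.sum_prod_type]
  congr 1
  · rw [Finset.sum_eq_single j]
    · rfl
    · intro x _ hx
      refine Finset.sum_eq_zero fun t _ => Finset.card_eq_zero.2 ?_
      exact Finset.filter_eq_empty_iff.2 fun c _ h => hx (mem_inl_fst h2 h)
    · simp
  · have h : ∀ s, (Finset.univ.filter fun c : Cl a q r => mem h2 c j = .inr s).card = 1 := by
      intro s
      simp [mem_inr_iff, Finset.filter_eq']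
    simp [h]

lemma rename_delta (φ : Equiv.Perm (Fin a)) :
    rename (Prod.map φ id) (delta a) =
      ((Equiv.Perm.sign φ : ℤ) : MvPolynomial (Fin a × Fin a) ℂ) * delta a := by
  rw [delta, AlgHom.map_det]
  have : (rename (Prod.map φ id)).mapMatrix (gmat a) = (gmat a).submatrix φ id := by
    ext1 i j
    simp [gmat]
  rw [this, Matrix.det_permute]

lemma monomial_eq_prod {σ : Type*} [Fintype σ] (α : σ →₀ ℕ) :
    (monomial α (1 : ℂ)) = ∏ v, X v ^ α v := by
  rw [monomial_eq, Finsupp.prod_fintype _ _ (by simp)]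
  simp

lemma bigL_symm_monomial (ha : 2 ≤ a) (hq : 1 ≤ q) (h2 : 2 * r ≤ q)
    (hb : 1 + Nat.clog 2 a + singleBudget a r ≤ a) (α : (Fin a × Fin a) →₀ ℕ)
    (hα : ∀ j, (∑ i, α (j, i)) + Fintype.card (Cl a q r) = q * a + r) :
    ∃ G : MvPolynomial (Slot a q r × Fin a) ℂ, bigL q r G =
      ∑ φ : Equiv.Perm (Fin a),
        rename (Prod.map φ id) (delta a ^ Fintype.card (Cl a q r) * monomial α 1) := by
  classical
  have h4 : r ≠ 0 → 4 ≤ a := by
    intro hr
    rw [singleBudget, if_neg hr] at hb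
    by_contra hlt
    interval_cases a <;> norm_num at hb
  have hu : ∀ j t, usage h2 j t ≤ a := fun j t => (usage_le h2 j t).trans hb
  have hcard : ∀ j : Fin a, Fintype.card (Σ i, Fin (α (j, i))) =
      Fintype.card (Σ t : Fin q, Fin (a - usage h2 j t)) := by
    intro j
    simp only [Fintype.card_sigma, Fintype.card_fin]
    rw [Finset.sum_tsub_distrib _ (fun t _ => hu j t)]
    have := usage_sum h2 j
    have := hα j
    simp only [Finset.sum_const, Finset.card_univ, Fintype.card_fin, smul_eq_mul]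
    omega
  let e := fun j => Fintype.equivOfCardEq (hcard j)
  let slot : (Σ j, Σ i, Fin (α (j, i))) → Slot a q r := fun x => .inl (x.1, (e x.1 x.2).1)
  let ι : (Σ j, Σ i, Fin (α (j, i))) → Fin a := fun x => x.2.1
  refine ⟨cliquePoly (mem h2) slot ι, ?_⟩
  rw [bigL_cliquePoly, Finset.mul_sum]
  have hexpo : ∀ φ : Equiv.Perm (Fin a),
      expo (mem h2) slot (fun _ => φ) (fun x => φ x.1) = mu (role0 φ) := by
    intro φ
    ext ⟨z, k⟩
    simp only [expo, Finsupp.add_apply, Finsupp.finsetSum_apply, Fintype.sum_sigma]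
    obtain ⟨k, rfl⟩ := φ.surjective k
    have h1 : (∑ c, ∑ j, (Finsupp.single (mem h2 c j, φ j) 1 :
        (Slot a q r × Fin a) →₀ ℕ) (z, φ k)) =
        (Finset.univ.filter fun c => mem h2 c k = z).card := by
      rw [Finset.card_filter]
      refine Finset.sum_congr rfl fun c _ => ?_
      rw [Finset.sum_eq_single k]
      · simp [Finsupp.single_apply]
      · intro x _ hx
        simp [hx]
      · simp
    have h3 : (∑ j, ∑ i, ∑ u : Fin (α (j, i)),
        (Finsupp.single (slot ⟨j, i, u⟩, φ j) 1 : (Slot a q r × Fin a) →₀ ℕ) (z, φ k)) =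
        ∑ x : (Σ t : Fin q, Fin (a - usage h2 k t)),
          if (Sum.inl (k, x.1) : Slot a q r) = z then 1 else 0 := by
      rw [Finset.sum_eq_single k]
      · rw [← Fintype.sum_sigma' (f := fun i (u : Fin (α (k, i))) =>
          (Finsupp.single (slot ⟨k, i, u⟩, φ k) 1 : (Slot a q r × Fin a) →₀ ℕ) (z, φ k))]
        refine Fintype.sum_equiv (e k) _ _ fun x => ?_
        simp [slot, Finsupp.single_apply]
      · intro x _ hx
        refine Finset.sum_eq_zero fun i _ => Finset.sum_eq_zero fun u _ => ?_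
        simp [hx]
      · simp
    rw [h1, h3, mu_apply, Fintype.sum_sigma]
    rcases z with ⟨j, t⟩ | s
    · by_cases hj : j = k
      · subst hj
        simp only [role0, Sum.elim_inl, if_pos]
        rw [Finset.sum_eq_single t]
        · simp only [if_pos, Finset.sum_const, Finset.card_univ, Fintype.card_fin, smul_eq_mul,
            mul_one]
          have := hu j t
          unfold usage at this ⊢
          omega
        · intro x _ hx
          simp [hx]
        · simp
      · have h0 : (Finset.univ.filter fun c => mem h2 c k = .inl (j, t)).card = 0 :=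
          Finset.card_eq_zero.2 (Finset.filter_eq_empty_iff.2 fun c _ h =>
            hj (mem_inl_fst h2 h))
        rw [h0]
        simp [role0, hj, Ne.symm hj]
    · simp [role0, mem_inr_iff, Finset.filter_eq']
  symm
  refine Finset.sum_bij (fun φ _ => (role0 φ, ((fun _ => φ), fun x => φ x.1))) ?_ ?_ ?_ ?_
  · intro φ _
    exact Finset.mem_filter.2 ⟨Finset.mem_univ _, role0_mem φ, hexpo φ⟩
  · intro φ _ φ' _ h
    exact congrFun (congrArg (fun x => x.2.1) h) (.inl ⟨0, hq⟩)
  · rintro ⟨ρ, π, κ⟩ hx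
    obtain ⟨-, hρ, he⟩ := Finset.mem_filter.1 hx
    obtain ⟨φ, rfl, rfl, rfl⟩ := rigid ha hq h2 h4 slot (fun x => x.1) (fun x => ⟨_, rfl⟩)
      ρ π κ hρ he
    exact ⟨φ, Finset.mem_univ _, rfl⟩
  · intro φ _
    simp only [termVal, Finset.prod_const, Finset.card_univ, Fintype.prod_sigma, ι,
      Fintype.card_fin]
    rw [map_mul, map_pow, rename_delta, monomial_eq_prod, map_prod, Fintype.prod_prod_type]
    simp only [map_pow, rename_X, Prod.map_apply, id]
    ring

lemma euler_coeff (p : Fin a) (α : (Fin a × Fin a) →₀ ℕ) (g : MvPolynomial (Fin a × Fin a) ℂ) :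
    coeff α (∑ i, X (p, i) * pderiv (p, i) g) = (∑ i, (α (p, i) : ℂ)) * coeff α g := by
  classical
  induction g using MvPolynomial.induction_on' with
  | add x y hx hy => simp only [map_add, mul_add, Finset.sum_add_distrib, coeff_add, hx, hy]
  | monomial β c =>
    simp only [X_mul_pderiv_monomial, coeff_sum, coeff_smul, coeff_monomial]
    by_cases h : β = α
    · subst h; simp [Finset.sum_mul, nsmul_eq_mul]
    · simp [h]

lemma euler_delta_pow (p : Fin a) (c : ℕ) :
    ∑ i, X (p, i) * pderiv (p, i) (delta a ^ c) = (c : ℂ) • delta a ^ c := by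
  have h := congrFun (congrFun (Matrix.mul_adjugate (gmat a)) p) p
  rw [Matrix.mul_apply] at h
  simp only [gmat, Matrix.mvPolynomialX_apply, Matrix.smul_apply, Matrix.one_apply_eq,
    smul_eq_mul, mul_one] at h
  induction c with
  | zero => simp
  | succ c ih =>
    simp only [pow_succ, pderiv_mul, mul_add, Finset.sum_add_distrib, ← mul_assoc]
    rw [← Finset.sum_mul, ih]
    simp only [pderiv_delta, gmat]
    rw [show (∑ i, X (p, i) * delta a ^ c * (Matrix.mvPolynomialX (Fin a) (Fin a) ℂ).adjugate i p)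
      = delta a ^ c * delta a by
        rw [delta, gmat, ← h, Finset.mul_sum]
        refine Finset.sum_congr rfl fun i _ => ?_
        ring]
    rw [Nat.cast_succ, add_smul, one_smul, smul_mul_assoc]

lemma mem_range_bigL (ha : 2 ≤ a) (hq : 1 ≤ q) (h2 : 2 * r ≤ q)
    (hb : 1 + Nat.clog 2 a + singleBudget a r ≤ a) {lam : Fin a → ℕ}
    (hlam : ∀ l : Fin a, (l : ℕ) = a - 1 → q + (q - 1) * Nat.clog 2 a + r * a ≤ lam l)
    {f : MvPolynomial (Fin a × Fin a) ℂ} (hf : f ∈ HW a (q * a + r) lam) :
    ∃ G : MvPolynomial (Fin (q * a + r) × Fin a) ℂ, bigL q r G = f := by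
  classical
  obtain ⟨hsym, hdeg, hup, hdiag⟩ := hf
  let l : Fin a := ⟨a - 1, by omega⟩
  set N := Fintype.card (Cl a q r) with hN
  have hN' : N ≤ lam l := by rw [hN, card_cl]; exact hlam l rfl
  obtain ⟨w, rfl⟩ := delta_pow_dvd l N lam f (fun i hi => hup i l (by
    have : (i : ℕ) ≠ a - 1 := fun h => hi (Fin.ext h)
    have := i.2
    show (i : ℕ) < a - 1
    omega)) (hdiag l) hN'
  have hne : delta a ^ N ≠ 0 := pow_ne_zero _ (prime_delta (by omega)).ne_zero
  have hw : ∀ α ∈ w.support, ∀ p, (∑ i, α (p, i)) + N = q * a + r := by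
    intro α hα p
    have h1 : ∑ i, X (p, i) * pderiv (p, i) (delta a ^ N * w) =
        ((q * a + r : ℕ) : ℂ) • (delta a ^ N * w) := by
      ext β
      rw [euler_coeff, coeff_smul, smul_eq_mul]
      by_cases hβ : β ∈ (delta a ^ N * w).support
      · rw [← hdeg β hβ p, Nat.cast_sum]
      · rw [notMem_support_iff.1 hβ]; simp
    have h3 : (N : ℂ) • w + ∑ i, X (p, i) * pderiv (p, i) w = ((q * a + r : ℕ) : ℂ) • w := by
      refine mul_left_cancel₀ hne ?_
      rw [mul_smul_comm, ← h1, mul_add, mul_smul_comm, ← smul_mul_assoc, ← euler_delta_pow p N,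
        Finset.sum_mul, Finset.mul_sum, ← Finset.sum_add_distrib]
      refine Finset.sum_congr rfl fun i _ => ?_
      rw [pderiv_mul]
      ring
    have h4 := congrArg (coeff α) h3
    rw [coeff_add, euler_coeff, coeff_smul, coeff_smul, smul_eq_mul, smul_eq_mul, ← add_mul] at h4
    have h5 := mul_right_cancel₀ (mem_support_iff.1 hα) h4
    rw [add_comm]
    exact_mod_cast h5
  let e : Slot a q r ≃ Fin (q * a + r) :=
    Fintype.equivFinOfCardEq (by simp [Fintype.card_sum, mul_comm])
  let Lm : MvPolynomial (Fin (q * a + r) × Fin a) ℂ →ₗ[ℂ] MvPolynomial (Fin a × Fin a) ℂ :=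
    bigL q r
  suffices (Fintype.card (Equiv.Perm (Fin a)) : ℂ) • (delta a ^ N * w) ∈ Lm.range from
    (Submodule.smul_mem_iff _ (Nat.cast_ne_zero.2 Fintype.card_ne_zero)).1 this
  have h6 : (Fintype.card (Equiv.Perm (Fin a)) : ℂ) • (delta a ^ N * w) =
      ∑ α ∈ w.support, coeff α w • ∑ φ : Equiv.Perm (Fin a),
        rename (Prod.map φ id) (delta a ^ N * monomial α 1) := by
    simp only [Finset.smul_sum, ← map_smul, ← mul_smul_comm, smul_monomial, smul_eq_mul, mul_one]
    rw [Finset.sum_comm]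
    simp only [← map_sum, ← Finset.mul_sum, ← w.as_sum, mul_smul_comm, hsym, Finset.sum_const,
      Finset.card_univ]
    rw [Nat.cast_smul_eq_nsmul]
  rw [h6]
  refine Submodule.sum_mem _ fun α hα => Submodule.smul_mem _ _ ?_
  obtain ⟨G, hG⟩ := bigL_symm_monomial ha hq h2 hb α (hw α hα)
  exact ⟨rename (Prod.map e id) G, (bigL_rename q r e G).trans hG⟩

/-- Foulkes' inequality for deep weights. -/
theorem hw_injection (ha : 2 ≤ a) (hq : 1 ≤ q) (h2 : 2 * r ≤ q)
    (hb : 1 + Nat.clog 2 a + singleBudget a r ≤ a) {lam : Fin a → ℕ}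
    (hlam : ∀ l : Fin a, (l : ℕ) = a - 1 → q + (q - 1) * Nat.clog 2 a + r * a ≤ lam l) :
    ∃ Φ : HW a (q * a + r) lam →ₗ[ℂ] HW (q * a + r) a lam, Function.Injective Φ := by
  refine ⟨((adj q r).domRestrict (HW a (q * a + r) lam)).codRestrict _ (fun f => ?_), ?_⟩
  · obtain ⟨f, hsym, hdeg, hup, hdiag⟩ := f
    exact ⟨fun σ => adj_rename q r σ f, adj_degree q r f,
      fun i k h => by rw [LinearMap.domRestrict_apply, ← adj_polar, hup i k h, map_zero],
      fun i => by rw [LinearMap.domRestrict_apply, ← adj_polar, hdiag i, map_smul]⟩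
  · rw [injective_iff_map_eq_zero]
    rintro ⟨f, hf⟩ h
    have h' : adj q r f = 0 := congrArg Subtype.val h
    obtain ⟨G, hG⟩ := mem_range_bigL ha hq h2 hb hlam hf
    have : pair f f = 0 := by
      conv_lhs => arg 1; rw [← hG]
      rw [← pair_adj, h', map_zero]
    exact Subtype.ext (eq_zero_of_pair_self this)

end

end Vale.Agent.P181.Deep
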