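import Vale.Agent.P181.Deep.Pair

/-!
The coefficient map from slot polynomials to point polynomials, and its adjoint.
-/

open MvPolynomial ComplexConjugate

namespace Vale.Agent.P181.Deep

noncomputable section

variable {S : Type*} [Fintype S] [DecidableEq S] {a : ℕ}

/-- substitution: a slot receives a generic combination of the points -/
def theta : MvPolynomial (S × Fin a) ℂ →ₐ[ℂ]
    MvPolynomial (S × Fin a) (MvPolynomial (Fin a × Fin a) ℂ) :=
  aeval fun v => ∑ j, X (v.1, j) * C (X (j, v.2))

lemma theta_X (v : S × Fin a) :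
    theta (X v : MvPolynomial (S × Fin a) ℂ) = ∑ j, X (v.1, j) * C (X (j, v.2)) := by
  simp [theta]

/-- the exponent of a role assignment -/
def mu (ρ : S → Option (Fin a)) : (S × Fin a) →₀ ℕ :=
  Finsupp.equivFunOnFinite.symm fun v =>
    if ρ v.1 = some v.2 then a else if ρ v.1 = none then 1 else 0

lemma mu_apply (ρ : S → Option (Fin a)) (s : S) (j : Fin a) :
    mu ρ (s, j) = if ρ s = some j then a else if ρ s = none then 1 else 0 := by
  simp [mu]

lemma mu_sum (ρ : S → Option (Fin a)) (s : S) : ∑ j, mu ρ (s, j) = a := by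
  cases h : ρ s <;> simp [mu_apply, h]

/-- role assignments with r free slots and q slots of each colour -/
def roles (S : Type*) [Fintype S] [DecidableEq S] (a q r : ℕ) : Finset (S → Option (Fin a)) :=
  Finset.univ.filter fun ρ => (Finset.univ.filter fun s => ρ s = none).card = r ∧
    ∀ j, (Finset.univ.filter fun s => ρ s = some j).card = q

/-- the coefficient map -/
def bigL (q r : ℕ) : MvPolynomial (S × Fin a) ℂ →ₗ[ℂ] MvPolynomial (Fin a × Fin a) ℂ :=
  ∑ ρ ∈ roles S a q r,
    ((lcoeff (MvPolynomial (Fin a × Fin a) ℂ) (mu ρ)).restrictScalars ℂ).comp theta.toLinearMap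

lemma bigL_apply (q r : ℕ) (G : MvPolynomial (S × Fin a) ℂ) :
    bigL q r G = ∑ ρ ∈ roles S a q r, coeff (mu ρ) (theta G) := by
  simp [bigL]

lemma coeff_theta_polar (i l : Fin a) (G : MvPolynomial (S × Fin a) ℂ)
    (m : (S × Fin a) →₀ ℕ) :
    coeff m (theta (polar i l G)) = polar i l (coeff m (theta G)) := by
  classical
  induction G using MvPolynomial.induction_on generalizing m with
  | C c =>
    rw [← algebraMap_eq, Derivation.map_algebraMap, map_zero, coeff_zero, AlgHom.commutes,
      IsScalarTower.algebraMap_apply ℂ (MvPolynomial (Fin a × Fin a) ℂ)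
        (MvPolynomial (S × Fin a) (MvPolynomial (Fin a × Fin a) ℂ)), algebraMap_eq, coeff_C]
    split_ifs
    · rw [Derivation.map_algebraMap]
    · simp
  | add p q hp hq => simp only [map_add, coeff_add, hp, hq]
  | mul_X p v hp =>
    obtain ⟨s, w⟩ := v
    have key : ∀ (H : MvPolynomial (S × Fin a) ℂ) (w : Fin a) (m : (S × Fin a) →₀ ℕ),
        coeff m (theta (H * X (s, w))) = ∑ j, (if (s, j) ∈ m.support then
          coeff (m - Finsupp.single (s, j) 1) (theta H) else 0) * X (j, w) := by
      intro H w m
      rw [map_mul, theta_X, Finset.mul_sum, coeff_sum]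
      refine Finset.sum_congr rfl fun j _ => ?_
      rw [← mul_assoc, mul_comm, coeff_C_mul, coeff_mul_X', mul_comm]
    rw [Derivation.leibniz, smul_eq_mul, smul_eq_mul, polar_X, map_add, coeff_add, key]
    rw [map_sum, mul_comm (X (s, w)), key, mul_ite, mul_zero]
    by_cases hw : w = l
    · rw [if_pos hw, key, ← Finset.sum_add_distrib]
      refine Finset.sum_congr rfl fun j _ => ?_
      rw [Derivation.leibniz, smul_eq_mul, smul_eq_mul, polar_X, if_pos hw]
      by_cases hj : (s, j) ∈ m.support
      · simp only [if_pos hj, hp]; ring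
      · simp only [if_neg hj, map_zero]; ring
    · rw [if_neg hw, map_zero, coeff_zero, zero_add]
      refine Finset.sum_congr rfl fun j _ => ?_
      rw [Derivation.leibniz, smul_eq_mul, smul_eq_mul, polar_X, if_neg hw]
      by_cases hj : (s, j) ∈ m.support
      · simp only [if_pos hj, hp]; ring
      · simp only [if_neg hj, map_zero]; ring

lemma bigL_polar (q r : ℕ) (i l : Fin a) (G : MvPolynomial (S × Fin a) ℂ) :
    bigL q r (polar i l G) = polar i l (bigL q r G) := by
  simp only [bigL_apply, coeff_theta_polar, map_sum]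

lemma theta_rename {T : Type*} [Fintype T] [DecidableEq T] (e : S ≃ T)
    (G : MvPolynomial (S × Fin a) ℂ) :
    theta (rename (Prod.map e id) G) = rename (Prod.map e id) (theta G) := by
  have h : theta.comp (rename (R := ℂ) (Prod.map e id : S × Fin a → T × Fin a)) =
      ((rename (R := MvPolynomial (Fin a × Fin a) ℂ)
        (Prod.map e id : S × Fin a → T × Fin a)).restrictScalars ℂ).comp theta := by
    refine MvPolynomial.algHom_ext fun v => ?_
    simp [theta, rename_X]
  exact congrArg (fun (φ : MvPolynomial (S × Fin a) ℂ →ₐ[ℂ] _) => φ G) h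

lemma bigL_rename {T : Type*} [Fintype T] [DecidableEq T] (q r : ℕ) (e : S ≃ T)
    (G : MvPolynomial (S × Fin a) ℂ) :
    bigL q r (rename (Prod.map e id) G) = bigL q r G := by
  rw [bigL_apply, bigL_apply]
  refine (Finset.sum_equiv (e.arrowCongr (Equiv.refl _)) (fun ρ => ?_) (fun ρ _ => ?_)).symm
  · have h : ∀ x, (Finset.univ.filter fun t => (e.arrowCongr (Equiv.refl _)) ρ t = x).card =
        (Finset.univ.filter fun s => ρ s = x).card := by
      intro x
      refine (Finset.card_equiv e fun s => ?_).symm
      simp [Equiv.arrowCongr]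
    simp only [roles, Finset.mem_filter, Finset.mem_univ, true_and, h]
  · have h : mu ((e.arrowCongr (Equiv.refl _)) ρ) = Finsupp.mapDomain (Prod.map e id) (mu ρ) := by
      ext ⟨t, j⟩
      have : (t, j) = Prod.map e id (e.symm t, j) := by simp
      rw [this, Finsupp.mapDomain_apply (e.injective.prodMap Function.injective_id)]
      simp [mu_apply, Equiv.arrowCongr]
    rw [theta_rename, h, coeff_rename_mapDomain _ (e.injective.prodMap Function.injective_id)]

lemma bigL_monomial_eq_zero (q r : ℕ) {α : (S × Fin a) →₀ ℕ} {c : ℂ} {s : S}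
    (h : ∑ i, α (s, i) ≠ a) : bigL q r (monomial α c) = 0 := by
  classical
  rw [bigL_apply]
  refine Finset.sum_eq_zero fun ρ _ => ?_
  let w : S × Fin a → ℕ := fun v => if v.1 = s then 1 else 0
  have hw : ∀ μ : (S × Fin a) →₀ ℕ, Finsupp.weight w μ = ∑ i, μ (s, i) := by
    intro μ
    rw [Finsupp.weight_apply, Finsupp.sum_fintype _ _ (by simp), Fintype.sum_prod_type,
      Finset.sum_eq_single s]
    · simp [w]
    · intro x _ hx; simp [w, hx]
    · simp
  have hom : IsWeightedHomogeneous w (theta (monomial α c)) (∑ v, α v * w v) := by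
    rw [theta, aeval_monomial, Finsupp.prod_fintype _ _ (by simp)]
    rw [IsScalarTower.algebraMap_apply ℂ (MvPolynomial (Fin a × Fin a) ℂ)
        (MvPolynomial (S × Fin a) (MvPolynomial (Fin a × Fin a) ℂ)), algebraMap_eq,
      show (∑ v, α v * w v) = 0 + ∑ v, α v * w v by simp]
    refine (isWeightedHomogeneous_C w _).mul (IsWeightedHomogeneous.prod _ _ _ fun v _ => ?_)
    have := (IsWeightedHomogeneous.sum (w := w) Finset.univ
      (fun j => X (v.1, j) * C (X (j, v.2) : MvPolynomial (Fin a × Fin a) ℂ)) (w v) (fun j _ => by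
        have h := (isWeightedHomogeneous_X (MvPolynomial (Fin a × Fin a) ℂ) w (v.1, j)).mul
          (isWeightedHomogeneous_C w (X (j, v.2) : MvPolynomial (Fin a × Fin a) ℂ))
        simpa [w] using h)).pow (α v)
    simpa using this
  refine hom.coeff_eq_zero _ ?_
  rw [hw, mu_sum, Fintype.sum_prod_type, Finset.sum_eq_single s]
  · simpa [w] using Ne.symm h
  · intro x _ hx; simp [w, hx]
  · simp

/-- exponents which are homogeneous of degree d in each slot -/
def slotExps (S : Type*) [Fintype S] [DecidableEq S] (a d : ℕ) : Finset ((S × Fin a) →₀ ℕ) :=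
  ((Fintype.piFinset fun _ : S × Fin a => Finset.range (d + 1)).image
    Finsupp.equivFunOnFinite.symm).filter fun α => ∀ s, ∑ i, α (s, i) = d

lemma mem_slotExps {d : ℕ} {α : (S × Fin a) →₀ ℕ} :
    α ∈ slotExps S a d ↔ ∀ s, ∑ i, α (s, i) = d := by
  simp only [slotExps, Finset.mem_filter, Finset.mem_image, Fintype.mem_piFinset,
    Finset.mem_range, and_iff_right_iff_imp]
  intro h
  refine ⟨fun v => α v, fun v => ?_, by ext; simp⟩
  have := Finset.single_le_sum (fun i _ => Nat.zero_le (α (v.1, i))) (Finset.mem_univ v.2)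
  rw [h] at this
  exact Nat.lt_succ_of_le this

/-- the adjoint of the coefficient map -/
def adj (q r : ℕ) : MvPolynomial (Fin a × Fin a) ℂ →ₗ[ℂ] MvPolynomial (S × Fin a) ℂ :=
  ∑ β ∈ slotExps S a a,
    (monomial β).comp ((efac β)⁻¹ • pair (bigL q r (monomial β 1)))

lemma coeff_adj (q r : ℕ) (β : (S × Fin a) →₀ ℕ) (f : MvPolynomial (Fin a × Fin a) ℂ) :
    coeff β (adj q r f) = (efac β)⁻¹ * pair (bigL q r (monomial β 1)) f := by
  classical
  simp only [adj, LinearMap.sum_apply, LinearMap.comp_apply, LinearMap.smul_apply, smul_eq_mul,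
    coeff_sum, coeff_monomial, Finset.sum_ite_eq']
  split_ifs with h
  · rfl
  · rw [mem_slotExps] at h
    push Not at h
    obtain ⟨s, hs⟩ := h
    rw [bigL_monomial_eq_zero q r hs, pair_zero_left, mul_zero]

lemma pair_adj (q r : ℕ) (G : MvPolynomial (S × Fin a) ℂ) (f : MvPolynomial (Fin a × Fin a) ℂ) :
    pair G (adj q r f) = pair (bigL q r G) f := by
  induction G using MvPolynomial.induction_on' with
  | add p q hp hq => simp only [map_add, pair_add_left, hp, hq]
  | monomial α c =>
    have h : monomial α c = c • monomial α 1 := by simp [smul_monomial]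
    rw [h, map_smul, pair_smul_left, pair_smul_left, pair_monomial_left, coeff_adj,
      mul_inv_cancel_left₀ (efac_ne_zero α)]

lemma adj_polar (q r : ℕ) (i l : Fin a) (f : MvPolynomial (Fin a × Fin a) ℂ) :
    adj (S := S) q r (polar i l f) = polar i l (adj q r f) := by
  ext β
  refine mul_left_cancel₀ (efac_ne_zero β) ?_
  rw [← pair_monomial_left, ← pair_monomial_left, pair_adj, pair_polar, pair_polar, pair_adj,
    bigL_polar]

lemma adj_rename (q r : ℕ) (e : Equiv.Perm S) (f : MvPolynomial (Fin a × Fin a) ℂ) :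
    rename (Prod.map e id) (adj q r f) = adj q r f := by
  ext β
  have hinj : Function.Injective (Prod.map e id : S × Fin a → S × Fin a) :=
    e.injective.prodMap Function.injective_id
  have h : β = Finsupp.mapDomain (Prod.map e id) (Finsupp.mapDomain (Prod.map e.symm id) β) := by
    rw [← Finsupp.mapDomain_comp]
    simp [Prod.map_comp_map]
  generalize hγ : Finsupp.mapDomain (Prod.map e.symm id) β = γ at h
  subst h
  rw [coeff_rename_mapDomain _ hinj, coeff_adj, coeff_adj, ← rename_monomial, bigL_rename]
  congr 2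
  exact (efac_mapDomain (e.prodCongr (Equiv.refl (Fin a))) _).symm

lemma adj_degree (q r : ℕ) (f : MvPolynomial (Fin a × Fin a) ℂ) :
    ∀ α ∈ (adj (S := S) q r f).support, ∀ s : S, ∑ i, α (s, i) = a := by
  intro α hα s
  by_contra h
  rw [mem_support_iff, coeff_adj, bigL_monomial_eq_zero q r h, pair_zero_left, mul_zero] at hα
  exact hα rfl

end

end Vale.Agent.P181.Deep
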