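import Mathlib

/-!
The apolar pairing of polynomials, polarisation operators, and highest weight spaces.
-/

open MvPolynomial ComplexConjugate

namespace Vale.Agent.P181.Deep

noncomputable section

variable {σ : Type*} [Fintype σ]

/-- product of the factorials of an exponent -/
def efac (α : σ →₀ ℕ) : ℂ := ∏ v, ((α v).factorial : ℂ)

lemma efac_ne_zero (α : σ →₀ ℕ) : efac α ≠ 0 := by
  simp [efac, Finset.prod_ne_zero_iff, Nat.factorial_ne_zero]

lemma efac_conj (α : σ →₀ ℕ) : conj (efac α) = efac α := by
  simp [efac]

lemma efac_mapDomain {τ : Type*} [Fintype τ] (e : σ ≃ τ) (α : σ →₀ ℕ) :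
    efac (Finsupp.mapDomain e α) = efac α := by
  unfold efac
  rw [← Equiv.prod_comp e]
  simp [Finsupp.mapDomain_apply e.injective]

lemma efac_add_single (α : σ →₀ ℕ) (v : σ) :
    efac (α + Finsupp.single v 1) = efac α * ((α v : ℂ) + 1) := by
  classical
  unfold efac
  rw [Fintype.prod_eq_mul_prod_compl v, Fintype.prod_eq_mul_prod_compl v]
  have h : ∀ x ∈ ({v} : Finset σ)ᶜ,
      ((((α + Finsupp.single v 1 : σ →₀ ℕ) x)).factorial : ℂ) = ((α x).factorial : ℂ) := by
    intro x hx
    have : x ≠ v := by simpa using hx
    simp [this]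
  rw [Finset.prod_congr rfl h]
  simp [Nat.factorial_succ]
  ring

/-- the apolar pairing, linear in the second argument -/
def pair (u : MvPolynomial σ ℂ) : MvPolynomial σ ℂ →ₗ[ℂ] ℂ :=
  (basisMonomials σ ℂ).constr ℂ fun α => efac α * conj (coeff α u)

lemma pair_monomial (u : MvPolynomial σ ℂ) (α : σ →₀ ℕ) (c : ℂ) :
    pair u (monomial α c) = c * (efac α * conj (coeff α u)) := by
  have h : monomial α c = c • basisMonomials σ ℂ α := by
    simp [smul_monomial]
  rw [h, map_smul, pair, Module.Basis.constr_basis, smul_eq_mul]

lemma pair_add_left (u u' f : MvPolynomial σ ℂ) : pair (u + u') f = pair u f + pair u' f := by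
  induction f using MvPolynomial.induction_on' with
  | add p q hp hq => simp only [map_add, hp, hq]; ring
  | monomial α c => simp only [pair_monomial, coeff_add, map_add]; ring

lemma pair_zero_left (f : MvPolynomial σ ℂ) : pair 0 f = 0 := by
  induction f using MvPolynomial.induction_on' with
  | add p q hp hq => simp only [map_add, hp, hq]; ring
  | monomial α c => simp [pair_monomial]

lemma pair_smul_left (x : ℂ) (u f : MvPolynomial σ ℂ) : pair (x • u) f = conj x * pair u f := by
  induction f using MvPolynomial.induction_on' with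
  | add p q hp hq => simp only [map_add, hp, hq]; ring
  | monomial α c => simp only [pair_monomial, coeff_smul, smul_eq_mul, map_mul]; ring

lemma pair_sum_left {ι : Type*} (s : Finset ι) (u : ι → MvPolynomial σ ℂ)
    (f : MvPolynomial σ ℂ) : pair (∑ x ∈ s, u x) f = ∑ x ∈ s, pair (u x) f := by
  classical
  induction s using Finset.induction_on with
  | empty => simp [pair_zero_left]
  | insert x s hx h => rw [Finset.sum_insert hx, Finset.sum_insert hx, pair_add_left, h]

lemma pair_monomial_left (β : σ →₀ ℕ) (g : MvPolynomial σ ℂ) :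
    pair (monomial β 1) g = efac β * coeff β g := by
  classical
  induction g using MvPolynomial.induction_on' with
  | add p q hp hq => simp only [map_add, hp, hq, coeff_add]; ring
  | monomial α c =>
    rw [pair_monomial, coeff_monomial, coeff_monomial]
    by_cases h : α = β
    · subst h; simp; ring
    · simp [h, Ne.symm h]

lemma pair_X_mul_left (v : σ) (u f : MvPolynomial σ ℂ) :
    pair (X v * u) f = pair u (pderiv v f) := by
  classical
  induction f using MvPolynomial.induction_on' with
  | add p q hp hq => simp only [map_add, hp, hq]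
  | monomial α c =>
    rw [pderiv_monomial, pair_monomial, pair_monomial, coeff_X_mul']
    by_cases h : α v = 0
    · simp [h, Finsupp.mem_support_iff]
    · rw [if_pos (Finsupp.mem_support_iff.2 h)]
      have hα : α = (α - Finsupp.single v 1) + Finsupp.single v 1 := by
        ext x; by_cases hx : x = v
        · subst hx; simp; omega
        · simp [hx]
      conv_lhs => rw [hα, efac_add_single]
      have : ((α - Finsupp.single v 1 : σ →₀ ℕ) v : ℂ) + 1 = (α v : ℂ) := by
        have : (α - Finsupp.single v 1 : σ →₀ ℕ) v + 1 = α v := by simp; omega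
        exact_mod_cast this
      rw [this]
      conv_lhs => rw [← hα]
      ring

lemma pair_pderiv_left (v : σ) (u f : MvPolynomial σ ℂ) :
    pair (pderiv v u) f = pair u (X v * f) := by
  classical
  induction f using MvPolynomial.induction_on' with
  | add p q hp hq => simp only [map_add, mul_add, hp, hq]
  | monomial α c =>
    rw [X, monomial_mul, one_mul, pair_monomial, pair_monomial, coeff_pderiv,
      add_comm (Finsupp.single v 1) α, efac_add_single]
    simp only [map_mul, map_add, map_natCast, map_one]
    ring

lemma eq_zero_of_pair_self {f : MvPolynomial σ ℂ} (h : pair f f = 0) : f = 0 := by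
  classical
  have h1 : pair f f = ∑ α ∈ f.support, coeff α f * (efac α * conj (coeff α f)) := by
    conv_lhs => arg 2; rw [f.as_sum]
    simp only [map_sum, pair_monomial]
  have h2 : ∀ α : σ →₀ ℕ, coeff α f * (efac α * conj (coeff α f))
      = (((∏ v, (α v).factorial : ℕ) : ℝ) * Complex.normSq (coeff α f) : ℝ) := by
    intro α
    rw [Complex.ofReal_mul, ← Complex.mul_conj]
    simp [efac]
    ring
  rw [h1, Finset.sum_congr rfl (fun α _ => h2 α), ← Complex.ofReal_sum,
    Complex.ofReal_eq_zero] at h
  ext α
  by_cases hα : α ∈ f.support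
  · have := (Finset.sum_eq_zero_iff_of_nonneg (fun α _ => by
      exact mul_nonneg (Nat.cast_nonneg _) (Complex.normSq_nonneg _))).1 h α hα
    rcases mul_eq_zero.1 this with h3 | h3
    · exfalso
      rw [Nat.cast_eq_zero, Finset.prod_eq_zero_iff] at h3
      obtain ⟨v, _, hv⟩ := h3
      exact Nat.factorial_ne_zero _ hv
    · simpa using h3
  · simpa using hα

variable {P : Type*} [Fintype P] {a : ℕ}

/-- the polarisation operator: the action of the matrix unit at (i,k) -/
def polar (i k : Fin a) : Derivation ℂ (MvPolynomial (P × Fin a) ℂ) (MvPolynomial (P × Fin a) ℂ) :=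
  ∑ p : P, (X (p, i) : MvPolynomial (P × Fin a) ℂ) • pderiv (p, k)

lemma polar_apply (i k : Fin a) (f : MvPolynomial (P × Fin a) ℂ) :
    polar i k f = ∑ p : P, X (p, i) * pderiv (p, k) f := by
  classical
  unfold polar
  generalize (Finset.univ : Finset P) = s
  induction s using Finset.induction_on with
  | empty => simp
  | insert x s hx h => rw [Finset.sum_insert hx, Finset.sum_insert hx]; simp [h]

lemma polar_X [DecidableEq P] (i k : Fin a) (p : P) (m : Fin a) :
    polar i k (X (p, m) : MvPolynomial (P × Fin a) ℂ) = if m = k then X (p, i) else 0 := by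
  rw [polar_apply]
  by_cases h : m = k
  · subst h
    rw [Finset.sum_eq_single p]
    · simp
    · intro x _ hx
      simp [Ne.symm hx]
    · simp
  · rw [if_neg h]
    refine Finset.sum_eq_zero fun x _ => ?_
    simp [h]

lemma pair_polar (i k : Fin a) (u f : MvPolynomial (P × Fin a) ℂ) :
    pair u (polar i k f) = pair (polar k i u) f := by
  rw [polar_apply, polar_apply, map_sum, pair_sum_left]
  refine Finset.sum_congr rfl fun p _ => ?_
  rw [← pair_pderiv_left, ← pair_X_mul_left]

/-- Highest weight vectors of weight `lam` in `Sym^n (Sym^d (Fin a → ℂ))`, the latter being the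
polynomials in an n by a matrix of variables which are invariant under permuting the rows and
homogeneous of degree d in each row. -/
def HW {a : ℕ} (n d : ℕ) (lam : Fin a → ℕ) : Submodule ℂ (MvPolynomial (Fin n × Fin a) ℂ) where
  carrier := {f | (∀ σ : Equiv.Perm (Fin n), rename (Prod.map σ id) f = f) ∧
    (∀ α ∈ f.support, ∀ p : Fin n, ∑ i, α (p, i) = d) ∧
    (∀ i k : Fin a, i < k → polar i k f = 0) ∧ (∀ i : Fin a, polar i i f = (lam i : ℂ) • f)}
  zero_mem' := by simp
  add_mem' := by
    classical
    rintro f g ⟨h1, h2, h3, h4⟩ ⟨g1, g2, g3, g4⟩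
    refine ⟨fun σ => by simp [h1, g1], fun α hα => ?_, fun i k h => by simp [h3 i k h, g3 i k h],
      fun i => by simp [h4, g4]⟩
    rcases Finset.mem_union.1 (support_add hα) with h | h
    exacts [h2 α h, g2 α h]
  smul_mem' := by
    rintro c f ⟨h1, h2, h3, h4⟩
    refine ⟨fun σ => by simp [h1], fun α hα => h2 α (support_smul hα),
      fun i k h => by simp [h3 i k h], fun i => ?_⟩
    rw [Derivation.map_smul, h4, smul_comm]

end

end Vale.Agent.P181.Deep
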